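import Mathlib
import Vale.Agent.P034.Def
import Vale.Agent.P034.Full.Main

/-!
# Talagrand's question: the fractional and integral expectation thresholds are equivalent
-/

open Finset

namespace Vale.Agent.Results.P034.ExpThresholdsEquivalent

open Vale.Agent.P034

/-- `q_f ≤ K q` with a universal constant `K`. -/
theorem result : ∃ K : ℝ, 0 < K ∧ ∀ (X : Type) [Fintype X] [DecidableEq X] [Nonempty X]
    (F : Finset (Finset X)), F.Nonempty → ∅ ∉ F → IsIncreasing F →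
    qFrac F ≤ K * qInt F := by
  refine ⟨2 ^ 135, by positivity, fun X _ _ _ F _ h0 _ => ?_⟩
  have ha : (1 : ℝ) ≤ 2 ^ 135 := one_le_pow₀ one_le_two
  have hbdd : BddAbove {p | p ∈ Set.Icc (0 : ℝ) 1 ∧ IsSmall F p} :=
    ⟨1, fun p hp => hp.1.2⟩
  have hzero : (0 : ℝ) ∈ {p | p ∈ Set.Icc (0 : ℝ) 1 ∧ IsSmall F p} := by
    refine ⟨⟨le_rfl, zero_le_one⟩, F, fun H hH => ⟨H, hH, Subset.rfl⟩, ?_⟩
    rw [sum_eq_zero fun S hS => zero_pow (by
      rw [Ne, card_eq_zero]; exact fun e => h0 (e ▸ hS))]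
    norm_num
  have hq : 0 ≤ qInt F := le_csSup hbdd hzero
  refine Real.sSup_le (fun p hp => ?_) (mul_nonneg (by positivity) hq)
  obtain ⟨⟨hp0, hp1⟩, g, hg, hcov, hw⟩ := hp
  obtain ⟨𝒢, hcost, hG⟩ := Full.small_of_fractional (fun S => (hg S).1) hp0 hp1 hw
  have hmem : p / 2 ^ 135 ∈ {p | p ∈ Set.Icc (0 : ℝ) 1 ∧ IsSmall F p} :=
    ⟨⟨div_nonneg hp0 (by positivity), div_le_one_of_le₀ (hp1.trans ha) (by positivity)⟩,
      𝒢, fun H hH => hG H (hcov H hH), hcost⟩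
  have := le_csSup hbdd hmem
  rw [div_le_iff₀ (by positivity)] at this
  exact this.trans_eq (mul_comm _ _)

end Vale.Agent.Results.P034.ExpThresholdsEquivalent
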